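import Mathlib
import Vale.Agent.Lib.P328.RP.BoxDual

/-!
P328: box certificates are invariant under permutations of the columns.

* `mem_Lev_comp` : `u ∘ σ` is in the level `q` of the box with capacities `c ∘ σ` exactly when
  `u` is in the level `q` of the box with capacities `c`.
* `boxCert_perm` : a certificate for the permuted capacities and colour function gives one for
  the original capacities and colour function (same frames).
-/

namespace Vale.Agent.Lib.P328.RP

open Finset

theorem mem_Lev_comp {n : ℕ} (σ : Equiv.Perm (Fin n)) (c : Fin n → ℕ) (q : ℕ)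
    (u : Fin n → ℕ) : u ∘ σ ∈ Lev (c ∘ σ) q ↔ u ∈ Lev c q := by
  rw [mem_Lev, mem_Lev]
  have hsum : ∑ j, (u ∘ σ) j = ∑ j, u j := Equiv.sum_comp σ u
  rw [hsum]
  constructor
  · rintro ⟨h1, h2⟩
    refine ⟨fun j => ?_, h2⟩
    have := h1 (σ.symm j)
    simpa using this
  · rintro ⟨h1, h2⟩
    exact ⟨fun j => h1 (σ j), h2⟩

/-- reindexing of a sum over the edges at a vertex -/
theorem sum_filter_perm {n : ℕ} (σ : Equiv.Perm (Fin n)) (p : Fin n → Prop)
    [DecidablePred p] [DecidablePred (fun i => p (σ i))] (G : Fin n → ℝ) :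
    ∑ j ∈ univ.filter p, G (σ.symm j) = ∑ i ∈ univ.filter (fun i => p (σ i)), G i := by
  refine Finset.sum_equiv σ.symm (fun j => ?_) (fun j _ => rfl)
  simp only [mem_filter, mem_univ, true_and, Equiv.apply_symm_apply]

/-- **Column permutations.**  A certificate for the capacities `c ∘ σ` and the colour function
`φ ∘ σ` gives a certificate for `c` and `φ` with the same frames. -/
theorem boxCert_perm {n : ℕ} (σ : Equiv.Perm (Fin n)) (c : Fin n → ℕ) (q : ℕ) (φ : Fin n → ℝ)
    (R S : ℝ) (h : BoxCert (c ∘ σ) q (φ ∘ σ) R S) : BoxCert c q φ R S := by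
  classical
  obtain ⟨Z1, Z2, hA, hB, hC, hD⟩ := h
  refine ⟨fun u j => Z1 (u ∘ σ) (σ.symm j), fun u j => Z2 (u ∘ σ) (σ.symm j), ?_, ?_, ?_, ?_⟩
  · intro u hu j hj
    have h1 := hA (u ∘ σ) ((mem_Lev_comp σ c q u).mpr hu) (σ.symm j)
      (by simpa using hj)
    simpa using h1
  · intro u hu
    have h1 := hB (u ∘ σ) ((mem_Lev_comp σ c q u).mpr hu)
    rw [← h1]
    exact sum_filter_perm σ (fun j => u j < c j) (fun i => Z1 (u ∘ σ) i)
  · intro y hy
    have h1 := hC (y ∘ σ) ((mem_Lev_comp σ c (q + 1) y).mpr hy)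
    rw [← h1]
    have h2 : ∀ j, Z2 (Function.update y j (y j - 1) ∘ σ) (σ.symm j)
        = (fun i => Z2 (Function.update (y ∘ σ) i ((y ∘ σ) i - 1)) i) (σ.symm j) := by
      intro j
      have h3 : Function.update y j (y j - 1) ∘ σ
          = Function.update (y ∘ σ) (σ.symm j) ((y ∘ σ) (σ.symm j) - 1) := by
        have h4 := Function.update_comp_eq_of_injective y σ.injective (σ.symm j)
          (y (σ (σ.symm j)) - 1)
        rw [Equiv.apply_symm_apply] at h4
        rw [h4]
        simp only [Function.comp_apply, Equiv.apply_symm_apply]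
      rw [h3]
    rw [Finset.sum_congr rfl (fun j _ => h2 j)]
    exact sum_filter_perm σ (fun j => 1 ≤ y j)
      (fun i => Z2 (Function.update (y ∘ σ) i ((y ∘ σ) i - 1)) i)
  · have h1 : ∑ u ∈ Lev c q, ∑ j ∈ univ.filter (fun j => u j < c j),
          Z1 (u ∘ σ) (σ.symm j) * Z2 (u ∘ σ) (σ.symm j)
        = ∑ v ∈ Lev (c ∘ σ) q, ∑ i ∈ univ.filter (fun i => v i < (c ∘ σ) i),
          Z1 v i * Z2 v i := by
      refine Finset.sum_nbij' (fun u => u ∘ σ) (fun v => v ∘ σ.symm) ?_ ?_ ?_ ?_ ?_
      · intro u hu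
        exact (mem_Lev_comp σ c q u).mpr hu
      · intro v hv
        have h2 : (v ∘ σ.symm) ∘ σ = v := by
          funext i
          simp only [Function.comp_apply, Equiv.symm_apply_apply]
        rw [← mem_Lev_comp σ c q, h2]
        exact hv
      · intro u _
        funext i
        simp only [Function.comp_apply, Equiv.apply_symm_apply]
      · intro v _
        funext i
        simp only [Function.comp_apply, Equiv.symm_apply_apply]
      · intro u _
        exact sum_filter_perm σ (fun j => u j < c j) (fun i => Z1 (u ∘ σ) i * Z2 (u ∘ σ) i)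
    rw [h1]
    exact hD

end Vale.Agent.Lib.P328.RP
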