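import Mathlib
import Vale.Agent.Lib.P328.RP.ThreeProj
import Vale.Agent.Lib.P328.RP.UnitRow

/-!
P328: a crude spectral gap for three-row tables whose last row has sum at most one.

For three rows with `r 2 ≤ 1` and arbitrary column sums, the variance of a function on the
tables is at most `6 n + 3` times the sum over the three pairs of rows of the quadratic forms
`ip f f - ip f (R q f)` (`n` the number of columns).

Proof for `r 2 = 1`: fix a table `x0` with unit column `l` and put `t` for the value at `x0`
of the conditional expectation of `f` given the last row.  Every table `x` has a partner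
`p x` with unit column `l` and the same row `0` or the same row `1` as `x`; writing `k` for
that row, `f x - t = D k x - D k (p x) + D 2 (p x)` where `D i = f - E[f | row i]`.  The map
`p` is at most `2 n` to one, because a table is determined by one of its first two rows and
its unit column.
-/

namespace Vale.Agent.Lib.P328.RP

open Finset
open Vale.Agent.Lib.P335.Bip

namespace CrudeGap

variable {n : ℕ} {r : Fin 3 → ℕ} {c : Fin n → ℕ}

/-- the variance is at most the sum of the squared deviations from any constant -/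
theorem var_le (f : CT 3 n r c → ℝ) (t : ℝ) :
    ip f f - ip f (R univ f) ≤ ∑ x, (f x - t) ^ 2 := by
  rcases isEmpty_or_nonempty (CT 3 n r c) with hE | hN
  · have h0 : ∀ g h : CT 3 n r c → ℝ, ip g h = 0 := by
      intro g h
      unfold ip
      simp
    rw [h0, h0]
    simp
  · have hN' : (0 : ℝ) < (Fintype.card (CT 3 n r c) : ℝ) := by
      exact_mod_cast Fintype.card_pos
    rw [ip_R_univ]
    have h1 : ∑ x, (f x - t) ^ 2
        = ip f f - 2 * t * ∑ x, f x + (Fintype.card (CT 3 n r c) : ℝ) * t ^ 2 := by
      unfold ip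
      have hc : (Fintype.card (CT 3 n r c) : ℝ) * t ^ 2 = ∑ _x : CT 3 n r c, t ^ 2 := by
        rw [Finset.sum_const, Finset.card_univ, nsmul_eq_mul]
      rw [hc, Finset.mul_sum, ← Finset.sum_sub_distrib, ← Finset.sum_add_distrib]
      exact Finset.sum_congr rfl (fun x _ => by ring)
    rw [h1]
    have h2 : ip f f - 2 * t * ∑ x, f x + (Fintype.card (CT 3 n r c) : ℝ) * t ^ 2
        - (ip f f - (∑ x, f x) ^ 2 / (Fintype.card (CT 3 n r c) : ℝ))
        = ((Fintype.card (CT 3 n r c) : ℝ) * t - ∑ x, f x) ^ 2
          / (Fintype.card (CT 3 n r c) : ℝ) := by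
      field_simp
      ring
    have h3 : 0 ≤ ((Fintype.card (CT 3 n r c) : ℝ) * t - ∑ x, f x) ^ 2
        / (Fintype.card (CT 3 n r c) : ℝ) :=
      div_nonneg (sq_nonneg _) hN'.le
    linarith

/-- every table has a partner with a prescribed unit column and the same row `0` or the
same row `1` -/
theorem exists_partner (hr : r 2 = 1) (x0 x : CT 3 n r c) :
    ∃ x' : CT 3 n r c, UnitRow.ucol hr x' = UnitRow.ucol hr x0 ∧
      (x'.1 0 = x.1 0 ∨ x'.1 1 = x.1 1) := by
  have h0 := UnitRow.col3 x0 (UnitRow.ucol hr x0)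
  have h1 := UnitRow.ucol_one hr x0
  have hx := UnitRow.col3 x (UnitRow.ucol hr x0)
  by_cases h : x.1 0 (UnitRow.ucol hr x0) < c (UnitRow.ucol hr x0)
  · obtain ⟨x', hx', hj⟩ := UnitRow.exists_table hr 0 (by decide) x (UnitRow.ucol hr x0) h
    exact ⟨x', hj, Or.inl hx'⟩
  · obtain ⟨x', hx', hj⟩ := UnitRow.exists_table hr 1 (by decide) x (UnitRow.ucol hr x0)
      (by omega)
    exact ⟨x', hj, Or.inr hx'⟩

/-- at most `n` tables share one of the first two rows -/
theorem card_class_le (hr : r 2 = 1) (a : Fin 3) (ha : a ≠ 2) (z : CT 3 n r c) :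
    (univ.filter (fun x : CT 3 n r c => x.1 a = z.1 a)).card ≤ n := by
  have h := Finset.card_le_card_of_injOn
    (s := univ.filter (fun x : CT 3 n r c => x.1 a = z.1 a))
    (t := (univ : Finset (Fin n))) (fun x => UnitRow.ucol hr x)
    (fun x _ => Finset.mem_univ _)
    (by
      intro x hx y hy hxy
      have hx' := (Finset.mem_filter.mp (Finset.mem_coe.mp hx)).2
      have hy' := (Finset.mem_filter.mp (Finset.mem_coe.mp hy)).2
      exact UnitRow.ext_of hr a ha x y (hx'.trans hy'.symm) hxy)
  simpa using h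

end CrudeGap

open CrudeGap in
/-- **Crude gap with a unit row.**  Three rows, last row of sum one, arbitrary column sums:
the variance is at most `6 n + 3` times the sum of the three pair forms. -/
theorem crude_gap_unit {n : ℕ} (r : Fin 3 → ℕ) (c : Fin n → ℕ) (hr : r 2 = 1)
    (f : CT 3 n r c → ℝ) :
    ip f f - ip f (R univ f)
      ≤ (6 * (n : ℝ) + 3) *
        ∑ q ∈ (univ : Finset (Fin 3)).powersetCard 2, (ip f f - ip f (R q f)) := by
  classical
  set E : Fin 3 → (CT 3 n r c → ℝ) := fun k => cexp (fun x : CT 3 n r c => x.1 k) f with hE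
  set G : CT 3 n r c → ℝ :=
    fun z => (f z - E 0 z) ^ 2 + (f z - E 1 z) ^ 2 + (f z - E 2 z) ^ 2 with hG
  have hS : ∑ q ∈ (univ : Finset (Fin 3)).powersetCard 2, (ip f f - ip f (R q f))
      = ∑ z, G z := by
    rw [ThreeTwo.sum_pairs (fun q => ip f f - ip f (R q f)), Fin.sum_univ_three]
    rw [R_erase_eq r c 0, R_erase_eq r c 1, R_erase_eq r c 2, ← ip_sub_cexp, ← ip_sub_cexp,
      ← ip_sub_cexp, ip_eq_sum_sq, ip_eq_sum_sq, ip_eq_sum_sq, ← Finset.sum_add_distrib,
      ← Finset.sum_add_distrib]
    rfl
  rw [hS]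
  have hG0 : ∀ z, 0 ≤ G z := fun z => by
    simp only [hG]
    positivity
  rcases isEmpty_or_nonempty (CT 3 n r c) with hemp | ⟨⟨x0⟩⟩
  · have h0 : ∀ g h : CT 3 n r c → ℝ, ip g h = 0 := by
      intro g h
      unfold ip
      simp
    rw [h0, h0]
    simp
  · set t : ℝ := E 2 x0 with ht
    have hpart := fun x => exists_partner hr x0 x
    choose p hp using hpart
    have hE2 : ∀ x, E 2 (p x) = t := by
      intro x
      refine cexp_congr (fun x : CT 3 n r c => x.1 2) ?_ f
      funext j
      show (p x).1 2 j = x0.1 2 j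
      rw [UnitRow.row2_apply hr (p x) j, UnitRow.row2_apply hr x0 j, (hp x).1]
    have hpt : ∀ x, (f x - t) ^ 2 ≤ 3 * (G x + G (p x)) := by
      intro x
      have hE2x := hE2 x
      rcases (hp x).2 with h | h
      · have hEk : E 0 (p x) = E 0 x := cexp_congr (fun x : CT 3 n r c => x.1 0) h f
        have e : f x - t = (f x - E 0 x) - (f (p x) - E 0 (p x)) + (f (p x) - E 2 (p x)) := by
          rw [hEk, hE2x]
          ring
        rw [e]
        simp only [hG]
        nlinarith [sq_nonneg ((f x - E 0 x) + (f (p x) - E 0 (p x))),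
          sq_nonneg ((f x - E 0 x) - (f (p x) - E 2 (p x))),
          sq_nonneg ((f (p x) - E 0 (p x)) + (f (p x) - E 2 (p x))),
          sq_nonneg (f x - E 1 x), sq_nonneg (f x - E 2 x), sq_nonneg (f (p x) - E 1 (p x))]
      · have hEk : E 1 (p x) = E 1 x := cexp_congr (fun x : CT 3 n r c => x.1 1) h f
        have e : f x - t = (f x - E 1 x) - (f (p x) - E 1 (p x)) + (f (p x) - E 2 (p x)) := by
          rw [hEk, hE2x]
          ring
        rw [e]
        simp only [hG]
        nlinarith [sq_nonneg ((f x - E 1 x) + (f (p x) - E 1 (p x))),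
          sq_nonneg ((f x - E 1 x) - (f (p x) - E 2 (p x))),
          sq_nonneg ((f (p x) - E 1 (p x)) + (f (p x) - E 2 (p x))),
          sq_nonneg (f x - E 0 x), sq_nonneg (f x - E 2 x), sq_nonneg (f (p x) - E 0 (p x))]
    have hmult : ∀ z, ((univ.filter (fun x => p x = z)).card : ℝ) ≤ 2 * (n : ℝ) := by
      intro z
      have hsub : univ.filter (fun x => p x = z)
          ⊆ univ.filter (fun x : CT 3 n r c => x.1 0 = z.1 0)
            ∪ univ.filter (fun x : CT 3 n r c => x.1 1 = z.1 1) := by
        intro x hx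
        have hx' := (Finset.mem_filter.mp hx).2
        rw [Finset.mem_union, Finset.mem_filter, Finset.mem_filter]
        rcases (hp x).2 with h | h
        · left
          exact ⟨Finset.mem_univ _, by rw [← hx']; exact h.symm⟩
        · right
          exact ⟨Finset.mem_univ _, by rw [← hx']; exact h.symm⟩
      have h1 := Finset.card_le_card hsub
      have h2 := Finset.card_union_le (univ.filter (fun x : CT 3 n r c => x.1 0 = z.1 0))
        (univ.filter (fun x : CT 3 n r c => x.1 1 = z.1 1))
      have h3 := card_class_le hr 0 (by decide) z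
      have h4 := card_class_le hr 1 (by decide) z
      have h5 : (univ.filter (fun x => p x = z)).card ≤ 2 * n := by omega
      exact_mod_cast h5
    have hsumGp : ∑ x, G (p x) ≤ 2 * (n : ℝ) * ∑ z, G z := by
      have h1 : ∑ x, G (p x) = ∑ z, ((univ.filter (fun x => p x = z)).card : ℝ) * G z := by
        rw [← Finset.sum_fiberwise (s := univ) (g := p) (f := fun x => G (p x))]
        refine Finset.sum_congr rfl (fun z _ => ?_)
        have h2 : ∀ x ∈ univ.filter (fun x => p x = z), G (p x) = G z := by
          intro x hx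
          rw [(Finset.mem_filter.mp hx).2]
        rw [Finset.sum_congr rfl h2, Finset.sum_const, nsmul_eq_mul]
      rw [h1, Finset.mul_sum]
      exact Finset.sum_le_sum (fun z _ => mul_le_mul_of_nonneg_right (hmult z) (hG0 z))
    have hfin : ∑ x, (3 * (G x + G (p x))) = 3 * ∑ x, G x + 3 * ∑ x, G (p x) := by
      rw [← Finset.mul_sum, Finset.sum_add_distrib]
      ring
    calc ip f f - ip f (R univ f) ≤ ∑ x, (f x - t) ^ 2 := var_le f t
      _ ≤ ∑ x, (3 * (G x + G (p x))) := Finset.sum_le_sum (fun x _ => hpt x)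
      _ = 3 * ∑ x, G x + 3 * ∑ x, G (p x) := hfin
      _ ≤ (6 * (n : ℝ) + 3) * ∑ z, G z := by linarith

/-- **Crude gap with a last row of sum at most one.** -/
theorem crude_gap_le_one {n : ℕ} (r : Fin 3 → ℕ) (c : Fin n → ℕ) (hr : r 2 ≤ 1)
    (f : CT 3 n r c → ℝ) :
    ip f f - ip f (R univ f)
      ≤ (6 * (n : ℝ) + 3) *
        ∑ q ∈ (univ : Finset (Fin 3)).powersetCard 2, (ip f f - ip f (R q f)) := by
  classical
  rcases Nat.lt_or_ge (r 2) 1 with h | h
  · have hr0 : r 2 = 0 := by omega
    have hRu : (R (univ.erase (2 : Fin 3)) : (CT 3 n r c → ℝ) →ₗ[ℝ] (CT 3 n r c → ℝ))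
        = R univ := by
      unfold R
      apply cexp_congr_ker
      intro x y
      rw [mask_eq_iff, mask_eq_iff]
      constructor
      · intro _ i hi
        exact absurd (Finset.mem_univ i) hi
      · intro _ i hi
        have hik : i = 2 := by
          by_contra hne
          exact hi (Finset.mem_erase.mpr ⟨hne, Finset.mem_univ i⟩)
        rw [hik]
        funext j
        have hx := entry_le x 2 j
        have hy := entry_le y 2 j
        omega
    rw [ThreeTwo.sum_pairs (fun q => ip f f - ip f (R q f)), Fin.sum_univ_three, hRu]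
    have h0 : 0 ≤ ip f f - ip f (R (univ.erase (0 : Fin 3)) f) := by
      rw [R_erase_eq r c 0]
      linarith [ip_cexp_le (fun x : CT 3 n r c => x.1 0) f]
    have h1 : 0 ≤ ip f f - ip f (R (univ.erase (1 : Fin 3)) f) := by
      rw [R_erase_eq r c 1]
      linarith [ip_cexp_le (fun x : CT 3 n r c => x.1 1) f]
    have h2 : 0 ≤ ip f f - ip f (R (univ : Finset (Fin 3)) f) := by
      rw [← hRu, R_erase_eq r c 2]
      linarith [ip_cexp_le (fun x : CT 3 n r c => x.1 2) f]
    have hn : (0 : ℝ) ≤ (n : ℝ) := Nat.cast_nonneg n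
    nlinarith
  · exact crude_gap_unit r c (by omega) f

end Vale.Agent.Lib.P328.RP
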