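import Mathlib
import Vale.Agent.Lib.P328.RP.RestrictedCol
import Vale.Agent.Lib.P328.helper66.CrudeGap

/-!
P328: the crude gap for three rows, one of them of sum at most one, inside `m × n` tables.

* `crude_transfer_at` : transfer to three rows `φ 0, φ 1, φ 2` of an `m × n` table of an
  inequality `ip g g - ip g (R univ g) ≤ K * ∑ over the three pairs (ip g g - ip g (R q g))`
  for three-row tables (column-restricted form, as in `block_transfer_at`).
* `crude_gap_rows`, `crude_gap_three` : for rows `i0, i1, a` with `r a ≤ 1`, resampling the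
  three rows is dominated by `6 n + 3` times the three pair resamplings.
-/

namespace Vale.Agent.Lib.P328.RP

open Finset
open Vale.Agent.Lib.P335.Bip
open BlockTransfer

/-- **Transfer of a three-row gap with a constant, column-restricted form.** -/
theorem crude_transfer_at {n m : ℕ} {r : Fin m → ℕ} (φ : Fin 3 ↪ Fin m) {c : Fin n → ℕ}
    (K : ℝ)
    (h3 : ∀ (x0 : CT m n r c) (g : CT 3 n (r ∘ φ) (fun j => ∑ a, x0.1 (φ a) j) → ℝ),
      ip g g - ip g (R univ g)
        ≤ K * ∑ q ∈ (univ : Finset (Fin 3)).powersetCard 2, (ip g g - ip g (R q g)))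
    (f : CT m n r c → ℝ) :
    ip f f - ip f (R ((univ : Finset (Fin 3)).map φ) f)
      ≤ K * ∑ p ∈ ((univ : Finset (Fin 3)).map φ).powersetCard 2,
          (ip f f - ip f (R p f)) := by
  classical
  set s : Finset (Option (Finset (Fin 3))) :=
    insertNone ((univ : Finset (Fin 3)).powersetCard 2) with hs
  set a : Option (Finset (Fin 3)) → ℝ := fun o => if o = none then -1 else K with ha
  set P : Option (Finset (Fin 3)) → Finset (Fin 3) := fun o => o.getD univ with hP
  have hcard : ((univ : Finset (Fin 3)).powersetCard 2).card = 3 := by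
    rw [Finset.card_powersetCard, Finset.card_univ, Fintype.card_fin]
    rfl
  have h : ∀ (x0 : CT m n r c) (g : CT 3 n (r ∘ φ) (fun j => ∑ a, x0.1 (φ a) j) → ℝ),
      ∑ α ∈ s, a α * ip g (E (P α) (univ : Finset (Fin n)) g) ≤ (3 * K - 1) * ip g g := by
    intro x0 g
    have h' := h3 x0 g
    rw [Finset.sum_sub_distrib, Finset.sum_const, hcard, nsmul_eq_mul] at h'
    rw [hs, Finset.sum_insertNone]
    simp only [ha, hP, Option.getD_none, Option.getD_some, if_true, reduceCtorEq, if_false,
      E_univ_right]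
    rw [← Finset.mul_sum]
    push_cast at h'
    linarith
  have key := block_transfer_at s a P (fun _ => (univ : Finset (Fin n))) (3 * K - 1) φ h f
  rw [hs, Finset.sum_insertNone] at key
  simp only [ha, hP, Option.getD_none, Option.getD_some, if_true, reduceCtorEq, if_false,
    E_univ_right] at key
  rw [← Finset.mul_sum] at key
  rw [powersetCard_map, Finset.sum_map]
  simp only [RelEmbedding.coe_toEmbedding, mapEmbedding_apply]
  rw [Finset.sum_sub_distrib, Finset.sum_const, hcard, nsmul_eq_mul]
  push_cast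
  linarith

/-- **Crude gap inside `m × n` tables.**  For three rows `φ 0, φ 1, φ 2` with
`r (φ 2) ≤ 1`. -/
theorem crude_gap_rows {m n : ℕ} {r : Fin m → ℕ} {c : Fin n → ℕ} (φ : Fin 3 ↪ Fin m)
    (hφ : r (φ 2) ≤ 1) (f : CT m n r c → ℝ) :
    ip f f - ip f (R ((univ : Finset (Fin 3)).map φ) f)
      ≤ (6 * (n : ℝ) + 3) *
        ∑ p ∈ ((univ : Finset (Fin 3)).map φ).powersetCard 2, (ip f f - ip f (R p f)) :=
  crude_transfer_at φ (6 * (n : ℝ) + 3)
    (fun x0 g => crude_gap_le_one (r ∘ φ) (fun j => ∑ a, x0.1 (φ a) j) hφ g) f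

/-- **Crude gap for three explicit rows.**  Rows `i0, i1, a` pairwise distinct, `r a ≤ 1`,
arbitrary column sums. -/
theorem crude_gap_three {m n : ℕ} {r : Fin m → ℕ} {c : Fin n → ℕ} (i0 i1 a : Fin m)
    (h01 : i0 ≠ i1) (h0a : i0 ≠ a) (h1a : i1 ≠ a) (ha : r a ≤ 1) (f : CT m n r c → ℝ) :
    ip f f - ip f (R {i0, i1, a} f)
      ≤ (6 * (n : ℝ) + 3) * ((ip f f - ip f (R {i0, i1} f)) + (ip f f - ip f (R {i0, a} f))
          + (ip f f - ip f (R {i1, a} f))) := by
  classical
  have hinj : Function.Injective (![i0, i1, a] : Fin 3 → Fin m) := by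
    intro u v huv
    fin_cases u <;> fin_cases v <;> simp_all
  set φ : Fin 3 ↪ Fin m := ⟨![i0, i1, a], hinj⟩ with hφ
  have key := crude_gap_rows (c := c) φ (show r (φ 2) ≤ 1 from ha) f
  have hU : (univ : Finset (Fin 3)).map φ = {i0, i1, a} := by
    ext i
    simp only [Finset.mem_map, Finset.mem_univ, true_and, Finset.mem_insert,
      Finset.mem_singleton]
    constructor
    · rintro ⟨u, rfl⟩
      fin_cases u
      · left; rfl
      · right; left; rfl
      · right; right; rfl
    · rintro (rfl | rfl | rfl)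
      · exact ⟨0, rfl⟩
      · exact ⟨1, rfl⟩
      · exact ⟨2, rfl⟩
  have h0 : ((univ : Finset (Fin 3)).erase 0).map φ = {i1, a} := by
    have e : (univ : Finset (Fin 3)).erase 0 = {1, 2} := by decide
    rw [e, Finset.map_insert, Finset.map_singleton]
    rfl
  have h1 : ((univ : Finset (Fin 3)).erase 1).map φ = {i0, a} := by
    have e : (univ : Finset (Fin 3)).erase 1 = {0, 2} := by decide
    rw [e, Finset.map_insert, Finset.map_singleton]
    rfl
  have h2 : ((univ : Finset (Fin 3)).erase 2).map φ = {i0, i1} := by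
    have e : (univ : Finset (Fin 3)).erase 2 = {0, 1} := by decide
    rw [e, Finset.map_insert, Finset.map_singleton]
    rfl
  rw [powersetCard_map, Finset.sum_map] at key
  simp only [RelEmbedding.coe_toEmbedding, mapEmbedding_apply] at key
  rw [ThreeTwo.sum_pairs (fun q => ip f f - ip f (R (q.map φ) f)), Fin.sum_univ_three,
    h0, h1, h2, hU] at key
  linarith

end Vale.Agent.Lib.P328.RP
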