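import Mathlib
import Vale.Agent.Lib.P328.helper74.ChainDefs

/-!
P328: the support part of the column step for the level sequences (`Lor`): after adding a
column of capacity `C`, the count sequence is positive exactly on `[0, m + C]`, and the three
sequences vanish outside this interval.
-/

namespace Vale.Agent.Lib.P328.helper74

open Finset

theorem Lor_w_nonneg {m : ℕ} {w l q : ℤ → ℝ} (h : Lor m w l q) (ρ : ℤ) : 0 ≤ w ρ := by
  by_cases hin : 0 ≤ ρ ∧ ρ ≤ (m : ℤ)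
  · exact (h.1 ρ hin.1 hin.2).le
  · have hout : ρ < 0 ∨ (m : ℤ) < ρ := by
      by_contra hcon
      push Not at hcon
      exact hin ⟨hcon.1, hcon.2⟩
    rw [h.2.1 ρ hout]

/-- positivity of the new count sequence on `[0, m + C]` -/
theorem addW_pos {m : ℕ} {w l q : ℤ → ℝ} (h : Lor m w l q) (C : ℕ) (ρ : ℤ) (h0 : 0 ≤ ρ)
    (h1 : ρ ≤ ((m + C : ℕ) : ℤ)) : 0 < addW C w ρ := by
  unfold addW
  apply Finset.sum_pos'
  · intro k _
    exact Lor_w_nonneg h _
  · have hk : ∃ k : ℕ, k ≤ C ∧ 0 ≤ ρ - (k : ℤ) ∧ ρ - (k : ℤ) ≤ (m : ℤ) := by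
      by_cases hρ : ρ ≤ (m : ℤ)
      · exact ⟨0, Nat.zero_le _, by simpa using h0, by simpa using hρ⟩
      · push Not at hρ
        refine ⟨(ρ - (m : ℤ)).toNat, ?_, ?_, ?_⟩
        · have : (ρ - (m : ℤ)).toNat ≤ C := by
            rw [Int.toNat_le]
            push_cast at h1
            omega
          exact this
        · have e : (((ρ - (m : ℤ)).toNat : ℕ) : ℤ) = ρ - (m : ℤ) := Int.toNat_of_nonneg (by omega)
          rw [e]
          have : (0 : ℤ) ≤ (m : ℤ) := Int.natCast_nonneg m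
          omega
        · have e : (((ρ - (m : ℤ)).toNat : ℕ) : ℤ) = ρ - (m : ℤ) := Int.toNat_of_nonneg (by omega)
          rw [e]
          omega
    obtain ⟨k, hkC, hk0, hkm⟩ := hk
    exact ⟨k, Finset.mem_range.mpr (Nat.lt_succ_of_le hkC), h.1 _ hk0 hkm⟩

/-- the new count sequence vanishes outside `[0, m + C]` -/
theorem addW_zero {m : ℕ} {w l q : ℤ → ℝ} (h : Lor m w l q) (C : ℕ) (ρ : ℤ)
    (hout : ρ < 0 ∨ ((m + C : ℕ) : ℤ) < ρ) : addW C w ρ = 0 := by
  unfold addW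
  apply Finset.sum_eq_zero
  intro k hk
  have hkC : k ≤ C := Nat.lt_succ_iff.mp (Finset.mem_range.mp hk)
  apply h.2.1
  push_cast at hout
  have hkC' : (k : ℤ) ≤ (C : ℤ) := by exact_mod_cast hkC
  have hk0 : (0 : ℤ) ≤ (k : ℤ) := Int.natCast_nonneg k
  rcases hout with h' | h'
  · left
    omega
  · right
    omega

/-- the new first-order sequence vanishes outside `[0, m + C]` -/
theorem addL_zero {m : ℕ} {w l q : ℤ → ℝ} (h : Lor m w l q) (C : ℕ) (t : ℝ) (ρ : ℤ)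
    (hout : ρ < 0 ∨ ((m + C : ℕ) : ℤ) < ρ) : addL C t w l ρ = 0 := by
  unfold addL
  push_cast at hout
  have hC0 : (0 : ℤ) ≤ (C : ℤ) := Int.natCast_nonneg C
  have h1 : ∑ k ∈ range (C + 1), l (ρ - (k : ℤ)) = 0 := by
    apply Finset.sum_eq_zero
    intro k hk
    have hkC : k ≤ C := Nat.lt_succ_iff.mp (Finset.mem_range.mp hk)
    apply h.2.2.1
    have hkC' : (k : ℤ) ≤ (C : ℤ) := by exact_mod_cast hkC
    have hk0 : (0 : ℤ) ≤ (k : ℤ) := Int.natCast_nonneg k
    rcases hout with h' | h'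
    · left
      omega
    · right
      omega
  have h2 : w (ρ - (C : ℤ)) = 0 := by
    apply h.2.1
    rcases hout with h' | h'
    · left
      omega
    · right
      omega
  rw [h1, h2]
  ring

/-- the new second-order sequence vanishes outside `[0, m + C]` -/
theorem addQ_zero {m : ℕ} {w l q : ℤ → ℝ} (h : Lor m w l q) (C : ℕ) (t : ℝ) (ρ : ℤ)
    (hout : ρ < 0 ∨ ((m + C : ℕ) : ℤ) < ρ) : addQ C t w l q ρ = 0 := by
  unfold addQ
  push_cast at hout
  have hC0 : (0 : ℤ) ≤ (C : ℤ) := Int.natCast_nonneg C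
  have h1 : ∑ k ∈ range (C + 1), q (ρ - (k : ℤ)) = 0 := by
    apply Finset.sum_eq_zero
    intro k hk
    have hkC : k ≤ C := Nat.lt_succ_iff.mp (Finset.mem_range.mp hk)
    apply h.2.2.2.1
    have hkC' : (k : ℤ) ≤ (C : ℤ) := by exact_mod_cast hkC
    have hk0 : (0 : ℤ) ≤ (k : ℤ) := Int.natCast_nonneg k
    rcases hout with h' | h'
    · left
      omega
    · right
      omega
  have h2 : w (ρ - (C : ℤ)) = 0 := by
    apply h.2.1
    rcases hout with h' | h'
    · left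
      omega
    · right
      omega
  have h3 : l (ρ - (C : ℤ)) = 0 := by
    apply h.2.2.1
    rcases hout with h' | h'
    · left
      omega
    · right
      omega
  have h4 : (if 1 ≤ C then w (ρ - (C : ℤ) + 1) else 0) = 0 := by
    by_cases hC : 1 ≤ C
    · rw [if_pos hC]
      apply h.2.1
      have hC' : (1 : ℤ) ≤ (C : ℤ) := by exact_mod_cast hC
      rcases hout with h' | h'
      · left
        omega
      · right
        omega
    · rw [if_neg hC]
  rw [h1, h2, h3, h4]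
  ring

/-- **Support part of the column step.** -/
theorem Lor_step_support {m : ℕ} {w l q : ℤ → ℝ} (h : Lor m w l q) (C : ℕ) (t : ℝ) :
    (∀ ρ : ℤ, 0 ≤ ρ → ρ ≤ ((m + C : ℕ) : ℤ) → 0 < addW C w ρ) ∧
    (∀ ρ : ℤ, (ρ < 0 ∨ ((m + C : ℕ) : ℤ) < ρ) → addW C w ρ = 0) ∧
    (∀ ρ : ℤ, (ρ < 0 ∨ ((m + C : ℕ) : ℤ) < ρ) → addL C t w l ρ = 0) ∧
    (∀ ρ : ℤ, (ρ < 0 ∨ ((m + C : ℕ) : ℤ) < ρ) → addQ C t w l q ρ = 0) :=
  ⟨fun ρ h0 h1 => addW_pos h C ρ h0 h1, fun ρ ho => addW_zero h C ρ ho,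
    fun ρ ho => addL_zero h C t ρ ho, fun ρ ho => addQ_zero h C t ρ ho⟩

end Vale.Agent.Lib.P328.helper74
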