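import Mathlib
import Vale.Agent.Lib.P328.helper14.TransposeChain
import Vale.Agent.Lib.P328.helper72.BlockFamily

/-!
P328: the mixing bound for margins with at most two rows of sum larger than one (any column
sums) holds as well for margins with at most two columns of sum larger than one (any row
sums), because the heat bath on two-by-two blocks is symmetric under transposition.

* `mixing22_sym_of_rows` : the symmetric statement from the row statement (generic).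
* `mixing22_two_fat_unit_sym_of_negcorr` : the symmetric statement, given the negative
  correlation of the two unit columns of four-row tables.
-/

namespace Vale.Agent.Lib.P328.RP

open Finset
open Vale.Agent.Lib.P335.Bip

/-- **Rows or columns.**  From the mixing bound for two arbitrary rows and unit rows to the
mixing bound for two arbitrary rows and unit rows, or two arbitrary columns and unit
columns. -/
theorem mixing22_sym_of_rows
    (hrows : ∀ {m n : ℕ} (_ : 2 ≤ m) (_ : 2 ≤ n) (r : Fin m → ℕ) (i0 i1 : Fin m)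
      (_ : ∀ i, i ≠ i0 → i ≠ i1 → r i ≤ 1) (c : Fin n → ℕ) (x : CT m n r c) (ε : ℝ)
      (_ : 0 < ε) (_ : ε ≤ 1) (t : ℕ)
      (_ : (m : ℝ) ^ 2 * (n : ℝ) ^ 2 * ((4 * (n : ℝ) + 1) * m + 1) *
        (m * n * Real.log (((∑ i, r i : ℕ) : ℝ) + 1) + Real.log (1 / ε)) ≤ t),
      (1 / 2) * ∑ y, |(heatBath22 m n r c ^ t) x y - 1 / (Fintype.card (CT m n r c) : ℝ)| ≤ ε)
    {m n : ℕ} (hm : 2 ≤ m) (hn : 2 ≤ n) (r : Fin m → ℕ) (c : Fin n → ℕ)
    (h : (∃ i0 i1 : Fin m, ∀ i, i ≠ i0 → i ≠ i1 → r i ≤ 1) ∨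
      (∃ j0 j1 : Fin n, ∀ j, j ≠ j0 → j ≠ j1 → c j ≤ 1))
    (x : CT m n r c) (ε : ℝ) (hε : 0 < ε) (hε1 : ε ≤ 1) (t : ℕ)
    (ht : (m : ℝ) ^ 2 * (n : ℝ) ^ 2 * (4 * (m : ℝ) * n + m + n + 1) *
      (m * n * Real.log (((∑ i, r i : ℕ) : ℝ) + 1) + Real.log (1 / ε)) ≤ t) :
    (1 / 2) * ∑ y, |(heatBath22 m n r c ^ t) x y - 1 / (Fintype.card (CT m n r c) : ℝ)| ≤ ε := by
  have hm0 : (0 : ℝ) ≤ (m : ℝ) := Nat.cast_nonneg m
  have hn0 : (0 : ℝ) ≤ (n : ℝ) := Nat.cast_nonneg n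
  have hN1 : (1 : ℝ) ≤ ((∑ i, r i : ℕ) : ℝ) + 1 := by
    have : (0 : ℝ) ≤ ((∑ i, r i : ℕ) : ℝ) := Nat.cast_nonneg _
    linarith
  have hL0 : 0 ≤ Real.log (((∑ i, r i : ℕ) : ℝ) + 1) := Real.log_nonneg hN1
  have hlogε : 0 ≤ Real.log (1 / ε) := by
    apply Real.log_nonneg
    rw [le_div_iff₀ hε]
    linarith
  have hX0 : 0 ≤ (m : ℝ) * n * Real.log (((∑ i, r i : ℕ) : ℝ) + 1) + Real.log (1 / ε) := by
    have : 0 ≤ (m : ℝ) * n * Real.log (((∑ i, r i : ℕ) : ℝ) + 1) := by positivity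
    linarith
  have hmn0 : 0 ≤ (m : ℝ) ^ 2 * (n : ℝ) ^ 2 := by positivity
  rcases h with ⟨i0, i1, hr⟩ | ⟨j0, j1, hc⟩
  · refine hrows hm hn r i0 i1 hr c x ε hε hε1 t (le_trans ?_ ht)
    have h1 : (4 * (n : ℝ) + 1) * m + 1 ≤ 4 * (m : ℝ) * n + m + n + 1 := by nlinarith
    exact mul_le_mul_of_nonneg_right (mul_le_mul_of_nonneg_left h1 hmn0) hX0
  · apply mixing22_of_tr x ε t
    refine hrows hn hm c j0 j1 hc r (tr x) ε hε hε1 t (le_trans ?_ ht)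
    have hsum : (∑ j, c j : ℕ) = ∑ i, r i := (sum_rows_eq_sum_cols x).symm
    rw [hsum]
    have h1 : (4 * (m : ℝ) + 1) * n + 1 ≤ 4 * (m : ℝ) * n + m + n + 1 := by nlinarith
    have h2 : (n : ℝ) ^ 2 * (m : ℝ) ^ 2 * ((4 * (m : ℝ) + 1) * n + 1) *
        ((n : ℝ) * m * Real.log (((∑ i, r i : ℕ) : ℝ) + 1) + Real.log (1 / ε))
        = (m : ℝ) ^ 2 * (n : ℝ) ^ 2 * ((4 * (m : ℝ) + 1) * n + 1) *
          ((m : ℝ) * n * Real.log (((∑ i, r i : ℕ) : ℝ) + 1) + Real.log (1 / ε)) := by ring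
    rw [h2]
    exact mul_le_mul_of_nonneg_right (mul_le_mul_of_nonneg_left h1 hmn0) hX0

/-- **Two arbitrary rows and unit rows, or two arbitrary columns and unit columns**: the
mixing bound for the heat bath on two-by-two blocks, given the negative correlation of the
two unit columns of the tables with four rows whose last two rows have sum one. -/
theorem mixing22_two_fat_unit_sym_of_negcorr
    (hNC : ∀ (n : ℕ) (r4 : Fin 4 → ℕ) (c' : Fin n → ℕ) (h2 : r4 2 = 1) (h3 : r4 3 = 1)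
      (σ : Fin n → ℝ), ∑ x : CT 4 n r4 c', σ (FourRow.ucol 2 h2 x) = 0 →
        ∑ x : CT 4 n r4 c', σ (FourRow.ucol 2 h2 x) * σ (FourRow.ucol 3 h3 x) ≤ 0)
    {m n : ℕ} (hm : 2 ≤ m) (hn : 2 ≤ n) (r : Fin m → ℕ) (c : Fin n → ℕ)
    (h : (∃ i0 i1 : Fin m, ∀ i, i ≠ i0 → i ≠ i1 → r i ≤ 1) ∨
      (∃ j0 j1 : Fin n, ∀ j, j ≠ j0 → j ≠ j1 → c j ≤ 1))
    (x : CT m n r c) (ε : ℝ) (hε : 0 < ε) (hε1 : ε ≤ 1) (t : ℕ)
    (ht : (m : ℝ) ^ 2 * (n : ℝ) ^ 2 * (4 * (m : ℝ) * n + m + n + 1) *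
      (m * n * Real.log (((∑ i, r i : ℕ) : ℝ) + 1) + Real.log (1 / ε)) ≤ t) :
    (1 / 2) * ∑ y, |(heatBath22 m n r c ^ t) x y - 1 / (Fintype.card (CT m n r c) : ℝ)| ≤ ε :=
  mixing22_sym_of_rows
    (fun {_ n'} hm' hn' r' i0 i1 hr' c' x' ε' hε' hε1' t' ht' =>
      BlockKnabe.mixing22_two_fat_unit_of_negcorr hm' hn' r' i0 i1 hr' (hNC n') c' x' ε' hε'
        hε1' t' ht')
    hm hn r c h x ε hε hε1 t ht

end Vale.Agent.Lib.P328.RP
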